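import Vale.Agent.Q355.Fin
import Vale.Agent.Q355.FinB
import Vale.Agent.Q355.NetFin
import Vale.Agent.Q355.Tree3
import Vale.Agent.Q355.Plain
import Vale.Agent.Q355.DA.K
import Vale.Agent.Q355.DA.All

/-!
P355: the largest number of pairwise mutually unbiased orthonormal bases of `ℂ⁶` is three.
The vector `v i k` is the `k`-th member of the `i`-th basis.
-/

namespace Vale.Agent.Results.P355.Three

theorem result :
    IsGreatest {n : ℕ | ∃ v : Fin n → Fin 6 → Fin 6 → ℂ,
      (∀ i k l, ∑ r, star (v i k r) * v i l r = if k = l then 1 else 0) ∧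
        ∀ i j, i ≠ j → ∀ k l, ‖∑ r, star (v i k r) * v j l r‖ ^ 2 = 1 / 6} 3 :=
  Q355.plain_of (Q355.fin_of Q355.Net.netZ Q355.Net.netX Q355.DA.allOK Q355.DA.tot_blks
    Q355.DA.walk_all (Q355.Tr.deadA (Q355.Agg.all_balls Q355.FinB.sub)))

end Vale.Agent.Results.P355.Three
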